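import Vale.Agent.P352.BW.T.Spec

/-!
# P352: the modular unitaries of the light cone (Huygens principle), block statements
-/

set_option linter.all false

noncomputable section

open MeasureTheory Filter Topology
open scoped ComplexConjugate InnerProductSpace BoundedContinuousFunction

namespace Vale.Agent.P352.BW.Lc

open Vale.Agent.P132 (ModData expB jconj)
open UniformSpace (Completion)
open GF H246 H496 H755 H15

variable {D : Type*} [NormedAddCommGroup D] [InnerProductSpace ℂ D]

/-- the open forward cone -/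
def Fw : Set V := {x | 0 < GF.mdot x x ∧ 0 < x o}

/-- the open backward cone -/
def Bk : Set V := {x | 0 < GF.mdot x x ∧ x o < 0}

/-- a field with the integer scaling dimension `n` -/
structure Fz (Q : Theory D) (n : ℤ) (B : Fld D) : Prop where
  fld : Q.fld B
  cov : ∀ s f v, 0 < s → GF.IsTest f → B f (Q.U s GF.one 0 v) =
    ((s ^ (4 - n) : ℝ) : ℂ) • Q.U s GF.one 0 (B (fun x => f (sim s GF.one 0 x)) v)

/-- the vacuum is cyclic for the fields with integer scaling dimensions -/
def ZGen (Q : Theory D) : Prop := ∀ S : Submodule ℂ D, Q.vac ∈ S →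
  (∀ n B f v, Fz Q n B → GF.IsTest f → v ∈ S → B f v ∈ S) → Dense (S : Set D)

/-- the dilations of `D`, with the parameter of the modular group of the forward cone -/
def dD (Q : Theory D) (t : ℝ) (v : D) : D := Q.U (Real.exp (-(2 * Real.pi * t))) GF.one 0 v

/-- the dilations of the completion of `D` -/
def dV (Q : Theory D) (t : ℝ) (z : Completion D) : Completion D :=
  Ue Q (Real.exp (-(2 * Real.pi * t))) GF.one 0 z

/-- the reflected test function -/
def rf (f : Fn) : Fn := fun x => f (-x)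

/-- algebra of fields with integer dimensions -/
structure T1 (Q : Theory D) : Prop where
  adj : ∀ n B, Fz Q n B → ∃ B', Fz Q n B' ∧ ∀ f v w, GF.IsTest f →
    inner ℂ (B f v) w = inner ℂ v (B' (GF.bar f) w)
  rr : ∀ f, rf (rf f) = f
  cj : ∀ f, GF.bar (rf f) = rf (GF.bar f)
  fb : ∀ f, In Fw f → In Bk (rf f)
  bf : ∀ f, In Bk f → In Fw (rf f)
  ib : ∀ O f, In O f → In O (GF.bar f)

/-- block T1 -/
def T1Stmt (Q : Theory D) (A : (V → V) → D → D) : Prop := Rep Q A → T1 Q

/-- block O: analytic continuation of the dilations on one-field vectors -/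
def OStmt (Q : Theory D) (A : (V → V) → D → D) : Prop :=
  Rep Q A → ∀ (n : ℤ) (B : Fld D) (f : Fn), Fz Q n B →
    (In Fw f → ∃ G : ℂ → Completion D, DifferentiableOn ℂ G T.SmI ∧ ContinuousOn G T.Sm ∧
      (∃ C, ∀ z ∈ T.Sm, ‖G z‖ ≤ C) ∧ ∀ t : ℝ, G t = (dD Q t (B f Q.vac) : D) ∧
        G (t - Complex.I / 2) = (dD Q t (((-1 : ℂ) ^ n) • B (rf f) Q.vac) : D)) ∧
    (In Bk f → ∃ G : ℂ → Completion D, DifferentiableOn ℂ G T.SmI ∧ ContinuousOn G T.Sm ∧
      (∃ C, ∀ z ∈ T.Sm, ‖G z‖ ≤ C) ∧ ∀ t : ℝ, G t = (dD Q (-t) (B f Q.vac) : D) ∧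
        G (t - Complex.I / 2) = (dD Q (-t) (((-1 : ℂ) ^ n) • B (rf f) Q.vac) : D))

/-- `M` is the algebra of the forward cone, as far as needed -/
structure Wal (Q : Theory D) (M : VonNeumannAlgebra (Completion D)) : Prop where
  aff : ∀ B f, Q.fld B → In Fw f → Aff M (B f)
  aff' : ∀ B f, Q.fld B → In Bk f → Aff M.commutant (B f)
  cov : ∀ t, ∀ X ∈ M, ∃ Y ∈ M, ∀ z, Y (dV Q t z) = dV Q t (X z)

/-- block S: the modular unitaries are the dilations on one-field vectors -/
def SStmt (Q : Theory D) (A : (V → V) → D → D) : Prop :=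
  Rep Q A → ∀ M (E : ModData M (om Q)), Wal Q M → ∀ n B f (t : ℝ), Fz Q n B →
    In Fw f → E.U t ((B f Q.vac : D) : Completion D) = ((dD Q t (B f Q.vac) : D) : Completion D)

/-- block P: products -/
def PStmt (Q : Theory D) (A : (V → V) → D → D) : Prop :=
  Rep Q A → ∀ M (E : ModData M (om Q)), Wal Q M → ∀ n B f (v : D), Fz Q n B → In Fw f →
    (∀ t : ℝ, E.U t (v : Completion D) = ((dD Q t v : D) : Completion D)) →
    ∀ t : ℝ, E.U t ((B f v : D) : Completion D) = ((dD Q t (B f v) : D) : Completion D)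

/-- block R: Reeh-Schlieder for the forward cone -/
def RStmt (Q : Theory D) (A : (V → V) → D → D) : Prop :=
  Rep Q A → ZGen Q → ∀ S : Submodule ℂ D, Q.vac ∈ S →
    (∀ n B f v, Fz Q n B → In Fw f → v ∈ S → B f v ∈ S) → Dense (S : Set D)

/-- block B: the modular unitaries are the dilations -/
def BStmt (Q : Theory D) (A : (V → V) → D → D) : Prop :=
  Rep Q A → ZGen Q → ∀ M (E : ModData M (om Q)), Wal Q M → ∀ t z, E.U t z = dV Q t z

end Vale.Agent.P352.BW.Lc

end
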