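import Vale.Agent.P352.BW.H728.Lc.O2
import Vale.Agent.P352.BW.T.O

/-!
# P352, light cone: analytic continuation of the dilations on one-field vectors (helper728)
-/

set_option linter.all false

noncomputable section

open MeasureTheory SchwartzMap Complex Filter Topology
open scoped SchwartzMap ComplexConjugate ENNReal

namespace Vale.Agent.P352.BW.Lc

open GF (Ix V Fn Fld Theory bas sim o)
open H246 H496 H746 H755 H15 O649
open UniformSpace (Completion)

/-! ### the values of the scale on the two lines -/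

lemma es_real (σ t : ℝ) : es σ t = ((Real.exp (-(2 * Real.pi * (σ * t))) : ℝ) : ℂ) := by
  unfold es
  push_cast
  ring_nf

lemma es_half {σ : ℝ} (hσ : σ = 1 ∨ σ = -1) (t : ℝ) :
    es σ ((t : ℂ) - I / 2) = -((Real.exp (-(2 * Real.pi * (σ * t))) : ℝ) : ℂ) := by
  unfold es
  rcases hσ with rfl | rfl
  · have : -(2 * (Real.pi : ℂ) * (((1 : ℝ) : ℂ) * ((t : ℂ) - I / 2))) =
        ((-(2 * Real.pi * (1 * t)) : ℝ) : ℂ) + Real.pi * I := by
      push_cast; ring
    rw [this, exp_add, exp_pi_mul_I, ofReal_exp]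
    ring
  · have : -(2 * (Real.pi : ℂ) * (((-1 : ℝ) : ℂ) * ((t : ℂ) - I / 2))) =
        ((-(2 * Real.pi * (-1 * t)) : ℝ) : ℂ) - Real.pi * I := by
      push_cast; ring
    rw [this, exp_sub, exp_pi_mul_I, ofReal_exp]
    ring

/-- the power of the scale -/
def en (σ : ℝ) (n : ℤ) (z : ℂ) : ℂ := (es σ z) ^ n

lemma nice_en (σ : ℝ) (n : ℤ) : Nice fun z => en σ n z := by
  have h : (fun z => en σ n z) = fun z => exp (((-(2 * Real.pi * σ) * n : ℝ) : ℂ) * z) := by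
    funext z
    unfold en es
    rw [← Complex.exp_int_mul]
    congr 1
    push_cast
    ring
  rw [h]
  exact Nice.exp _

/-! ### the momentum space functions of the dilated vectors -/

section mom

variable {μ : Measure Mink}

open Classical in
/-- the momentum space function `p ↦ F^(s p)` -/
def gz (σ : ℝ) (μ : Measure Mink) (F : 𝓢(Mink, ℂ)) (z : ℂ) : Lp ℂ 2 μ :=
  if h : MemLp (fun p => cft F (cd σ z p)) 2 μ then h.toLp _ else 0

variable {σ : ℝ} (hσ : σ = 1 ∨ σ = -1)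

include hσ

lemma memLp_cd (temp : μ.HasTemperateGrowth) (cone : ∀ᵐ p ∂μ, p ∈ fwdCone) (F : 𝓢(Mink, ℂ))
    (hF : P352.IsTest (WM σ) F) {z : ℂ} (hz : z ∈ T.St) :
    MemLp (fun p => cft F (cd σ z p)) 2 μ := by
  obtain ⟨N, hN⟩ := exists_wt_memLp temp
  obtain ⟨C, r, hC, hr, h⟩ := decay_cd hσ F hF N
  refine MemLp.of_le_mul (c := C * Real.exp (r * |z.re|)) hN
    (continuous_cft_cd_right σ F hF.1 z).aestronglyMeasurable ?_
  filter_upwards [cone] with p hp
  rw [Real.norm_of_nonneg (wt_nonneg N p)]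
  exact h p hp z hz

lemma coe_gz (temp : μ.HasTemperateGrowth) (cone : ∀ᵐ p ∂μ, p ∈ fwdCone) (F : 𝓢(Mink, ℂ))
    (hF : P352.IsTest (WM σ) F) {z : ℂ} (hz : z ∈ T.St) :
    gz σ μ F z =ᵐ[μ] fun p => cft F (cd σ z p) := by
  have h := memLp_cd hσ temp cone F hF hz
  rw [gz, dif_pos h]
  exact h.coeFn_toLp

lemma inner_gz (temp : μ.HasTemperateGrowth) (cone : ∀ᵐ p ∂μ, p ∈ fwdCone) (F : 𝓢(Mink, ℂ))
    (hF : P352.IsTest (WM σ) F) {z : ℂ} (hz : z ∈ T.St) (y : Lp ℂ 2 μ) :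
    inner ℂ y (gz σ μ F z) = ∫ p, cft F (cd σ z p) * conj (y p) ∂μ := by
  rw [L2.inner_def]
  apply integral_congr_ae
  filter_upwards [coe_gz hσ temp cone F hF hz] with p hp
  rw [hp, RCLike.inner_apply]

lemma nice_gz (temp : μ.HasTemperateGrowth) (cone : ∀ᵐ p ∂μ, p ∈ fwdCone) (F : 𝓢(Mink, ℂ))
    (hF : P352.IsTest (WM σ) F) (y : Lp ℂ 2 μ) :
    Nice fun z => inner ℂ y (gz σ μ F z) := by
  obtain ⟨h1, h2, C, r, hC, hr, h3⟩ := o2 hσ temp cone F hF (Lp.memLp y).star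
  have he : ∀ z ∈ T.St, inner ℂ y (gz σ μ F z) =
      ∫ p, cft F (cd σ z p) * (star (y : Mink → ℂ)) p ∂μ := fun z hz => by
    rw [inner_gz hσ temp cone F hF hz]
    rfl
  refine ⟨h1.congr he, h2.congr fun z hz => he z ⟨hz.1.le, hz.2.le⟩, C, r, hC, hr,
    fun z hz hz' => ?_⟩
  rw [he z ⟨hz, hz'⟩]
  exact h3 z ⟨hz, hz'⟩

lemma gz_real (temp : μ.HasTemperateGrowth) (cone : ∀ᵐ p ∂μ, p ∈ fwdCone) (F : 𝓢(Mink, ℂ))
    (hF : P352.IsTest (WM σ) F) (t : ℝ) {s : ℝ} (hs : 0 < s)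
    (h : s = Real.exp (-(2 * Real.pi * (σ * t)))) :
    gz σ μ F t = ((s : ℂ) ^ 4)⁻¹ • toL temp (scaleS s⁻¹ (inv_pos.2 hs).ne' F) := by
  apply Lp.ext
  have hz : (t : ℂ) ∈ T.St := by constructor <;> simp
  filter_upwards [coe_gz hσ temp cone F hF hz,
    coeFn_toL temp (scaleS s⁻¹ (inv_pos.2 hs).ne' F),
    Lp.coeFn_smul (((s : ℂ) ^ 4)⁻¹) (toL temp (scaleS s⁻¹ (inv_pos.2 hs).ne' F))] with p h1 h2 h3
  rw [h3, Pi.smul_apply, h1, h2, mft_scaleS _ (inv_pos.2 hs), inv_inv, smul_eq_mul]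
  have e : cd σ t p = fun j => (((s • p : Mink) j : ℝ) : ℂ) := by
    funext j
    rw [cd, es_real, ← h]
    simp
  rw [e, cft_ofReal]
  have hs0 : (s : ℂ) ≠ 0 := by exact_mod_cast hs.ne'
  push_cast
  field_simp

omit hσ in
lemma mft_neg (F : 𝓢(Mink, ℂ)) (p : Mink) :
    mft (scaleS (-1) (by norm_num) F) p = mft F (-p) := by
  unfold mft
  rw [← integral_neg_eq_self (fun x => exp (I * (mdot (-p) x : ℂ)) * F x)]
  congr 1
  ext x
  rw [scaleS_apply]
  have e1 : (-1 : ℝ) • x = -x := by simp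
  have e2 : mdot (-p) (-x) = mdot p x := by
    simp only [mdot, PiLp.neg_apply]; ring
  rw [e1, e2]

lemma gz_half (temp : μ.HasTemperateGrowth) (cone : ∀ᵐ p ∂μ, p ∈ fwdCone) (F : 𝓢(Mink, ℂ))
    (hF : P352.IsTest (WM σ) F) (t : ℝ) {s : ℝ} (hs : 0 < s)
    (h : s = Real.exp (-(2 * Real.pi * (σ * t)))) :
    gz σ μ F ((t : ℂ) - I / 2) = ((s : ℂ) ^ 4)⁻¹ •
      toL temp (scaleS s⁻¹ (inv_pos.2 hs).ne' (scaleS (-1) (by norm_num) F)) := by
  apply Lp.ext
  have hz : ((t : ℂ) - I / 2) ∈ T.St := by constructor <;> simp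
  filter_upwards [coe_gz hσ temp cone F hF hz,
    coeFn_toL temp (scaleS s⁻¹ (inv_pos.2 hs).ne' (scaleS (-1) (by norm_num) F)),
    Lp.coeFn_smul (((s : ℂ) ^ 4)⁻¹)
      (toL temp (scaleS s⁻¹ (inv_pos.2 hs).ne' (scaleS (-1) (by norm_num) F)))] with p h1 h2 h3
  rw [h3, Pi.smul_apply, h1, h2, mft_scaleS _ (inv_pos.2 hs), inv_inv, mft_neg, smul_eq_mul]
  have e : cd σ ((t : ℂ) - I / 2) p = fun j => (((-(s • p) : Mink) j : ℝ) : ℂ) := by
    funext j
    rw [cd, es_half hσ, ← h]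
    simp
  rw [e, cft_ofReal]
  have hs0 : (s : ℂ) ≠ 0 := by exact_mod_cast hs.ne'
  push_cast
  field_simp

/-- norm continuity on the closed strip -/
lemma cont_gz (temp : μ.HasTemperateGrowth) (cone : ∀ᵐ p ∂μ, p ∈ fwdCone) (F : 𝓢(Mink, ℂ))
    (hF : P352.IsTest (WM σ) F) : ContinuousOn (gz σ μ F) T.St := by
  intro z₀ hz₀
  obtain ⟨N, hN⟩ := exists_wt_memLp temp
  obtain ⟨C, r, hC, hr, h⟩ := decay_cd hσ F hF N
  have hsq : Integrable (fun p => (wt N p) ^ 2) μ := by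
    have := hN.integrable_sq
    exact this
  have hnorm : ∀ z ∈ T.St, ‖gz σ μ F z - gz σ μ F z₀‖ ^ 2 =
      ∫ p, ‖cft F (cd σ z p) - cft F (cd σ z₀ p)‖ ^ 2 ∂μ := by
    intro z hz
    have e1 : inner ℂ (gz σ μ F z - gz σ μ F z₀) (gz σ μ F z - gz σ μ F z₀) =
        ∫ p, ((‖cft F (cd σ z p) - cft F (cd σ z₀ p)‖ ^ 2 : ℝ) : ℂ) ∂μ := by
      rw [L2.inner_def]
      apply integral_congr_ae
      filter_upwards [coe_gz hσ temp cone F hF hz, coe_gz hσ temp cone F hF hz₀,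
        Lp.coeFn_sub (gz σ μ F z) (gz σ μ F z₀)] with p h1 h2 h3
      rw [h3, Pi.sub_apply, h1, h2, inner_self_eq_norm_sq_to_K]
      norm_cast
    rw [inner_self_eq_norm_sq_to_K, integral_complex_ofReal] at e1
    apply Complex.ofReal_injective
    rw [← e1, ofReal_pow]
    rfl
  have hlim : Tendsto (fun z => ∫ p, ‖cft F (cd σ z p) - cft F (cd σ z₀ p)‖ ^ 2 ∂μ)
      (𝓝[T.St] z₀) (𝓝 (∫ p, ‖cft F (cd σ z₀ p) - cft F (cd σ z₀ p)‖ ^ 2 ∂μ)) := by
    refine tendsto_integral_filter_of_dominated_convergence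
      (fun p => (2 * (C * Real.exp (r * (|z₀.re| + 1)))) ^ 2 * (wt N p) ^ 2) ?_ ?_
      (hsq.const_mul _) ?_
    · refine Eventually.of_forall fun z => ?_
      exact (((continuous_cft_cd_right σ F hF.1 z).sub
        (continuous_cft_cd_right σ F hF.1 z₀)).norm.pow 2).aestronglyMeasurable
    · have hmem : {z : ℂ | |z.re| < |z₀.re| + 1} ∈ 𝓝 z₀ := by
        apply IsOpen.mem_nhds
        · exact isOpen_lt (by fun_prop) continuous_const
        · show |z₀.re| < |z₀.re| + 1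
          linarith
      filter_upwards [mem_nhdsWithin_of_mem_nhds hmem, self_mem_nhdsWithin] with z hz1 hz2
      filter_upwards [cone] with p hp
      have hb1 : ∀ w ∈ T.St, |w.re| ≤ |z₀.re| + 1 →
          ‖cft F (cd σ w p)‖ ≤ C * Real.exp (r * (|z₀.re| + 1)) * wt N p := by
        intro w hw hw'
        refine (h p hp w hw).trans ?_
        have := wt_nonneg N p
        gcongr
      have e1 := hb1 z hz2 (le_of_lt hz1)
      have e2 := hb1 z₀ hz₀ (by linarith)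
      rw [Real.norm_of_nonneg (by positivity), ← mul_pow]
      apply pow_le_pow_left₀ (norm_nonneg _)
      calc _ ≤ ‖cft F (cd σ z p)‖ + ‖cft F (cd σ z₀ p)‖ := norm_sub_le _ _
        _ ≤ _ := by linarith
    · refine Eventually.of_forall fun p => ?_
      have hc : Continuous fun z => ‖cft F (cd σ z p) - cft F (cd σ z₀ p)‖ ^ 2 :=
        (((differentiable_cft_cd σ F hF.1 p).continuous.sub continuous_const).norm.pow 2)
      exact hc.continuousWithinAt
  have h0 : Tendsto (fun z => ‖gz σ μ F z - gz σ μ F z₀‖ ^ 2) (𝓝[T.St] z₀) (𝓝 0) := by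
    have e : (∫ p, ‖cft F (cd σ z₀ p) - cft F (cd σ z₀ p)‖ ^ 2 ∂μ) = 0 := by simp
    rw [e] at hlim
    refine hlim.congr' ?_
    filter_upwards [self_mem_nhdsWithin] with z hz
    rw [hnorm z hz]
  have h1 : Tendsto (fun z => ‖gz σ μ F z - gz σ μ F z₀‖) (𝓝[T.St] z₀) (𝓝 0) := by
    have := h0.sqrt
    simpa using this
  exact tendsto_iff_norm_sub_tendsto_zero.2 h1

end mom

/-! ### one-field vectors -/

section vec

variable {D : Type*} [NormedAddCommGroup D] [InnerProductSpace ℂ D] {Q : Theory D}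
  {A : (V → V) → D → D}

lemma sim_s (s : ℝ) (x : V) : sim s GF.one 0 x = s • x := by
  funext n
  simp [sim, GF.one, bas]

lemma isLor_one' : GF.IsLor GF.one := Vale.Agent.P352.isLor_one

lemma fl_scale (s : ℝ) (hs : s ≠ 0) (F : 𝓢(Mink, ℂ)) :
    fl (scaleS s hs F) = fun x => fl F (s • x) := by
  funext x
  rw [fl_apply, scaleS_apply, fl_apply]
  rfl

lemma rf_fl (F : 𝓢(Mink, ℂ)) : rf (fl F) = fl (scaleS (-1) (by norm_num) F) := by
  rw [fl_scale]
  funext x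
  simp [rf]

lemma U_op {n : ℤ} {B : Fld D} (hB : Fz Q n B) (F : 𝓢(Mink, ℂ)) {s : ℝ} (hs : 0 < s) :
    ((Q.U s GF.one 0 (B (fl F) Q.vac) : D) : Completion D) =
      ((s : ℂ) ^ n * ((s : ℂ) ^ 4)⁻¹) • kf hB.fld (scaleS s⁻¹ (inv_pos.2 hs).ne' F) := by
  have h := hB.cov s (fl (scaleS s⁻¹ (inv_pos.2 hs).ne' F)) Q.vac hs (isTest_fl _)
  rw [Q.U_vac s _ 0 hs isLor_one'] at h
  have e : (fun x => fl (scaleS s⁻¹ (inv_pos.2 hs).ne' F) (sim s GF.one 0 x)) = fl F := by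
    funext x
    rw [fl_scale, sim_s]
    show fl F (s⁻¹ • s • x) = fl F x
    rw [inv_smul_smul₀ hs.ne']
  rw [e] at h
  rw [kf_apply, h, Completion.coe_smul, smul_smul]
  have hs0 : (s : ℂ) ≠ 0 := by exact_mod_cast hs.ne'
  have e2 : (s : ℂ) ^ n * ((s : ℂ) ^ 4)⁻¹ * ((s ^ (4 - n) : ℝ) : ℂ) = 1 := by
    rw [ofReal_zpow, zpow_sub₀ hs0]
    have h1 : (s : ℂ) ^ n ≠ 0 := zpow_ne_zero n hs0
    have h2 : (s : ℂ) ^ (4 : ℤ) = (s : ℂ) ^ 4 := by norm_cast
    rw [h2]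
    field_simp
  rw [e2, one_smul]

end vec

variable {D : Type*} [NormedAddCommGroup D] [InnerProductSpace ℂ D] {Q : Theory D}
  {A : (V → V) → D → D}

/-- Block O, for one of the two cones -/
theorem o_sig {σ : ℝ} (hσ : σ = 1 ∨ σ = -1) {n : ℤ} {B : Fld D} (hB : Fz Q n B)
    (F : 𝓢(Mink, ℂ)) (hF : P352.IsTest (WM σ) F) :
    ∃ G : ℂ → Completion D, DifferentiableOn ℂ G T.SmI ∧ ContinuousOn G T.Sm ∧
      (∃ C, ∀ z ∈ T.Sm, ‖G z‖ ≤ C) ∧ ∀ t : ℝ, G t = (dD Q (σ * t) (B (fl F) Q.vac) : D) ∧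
        G (t - Complex.I / 2) =
          (dD Q (σ * t) (((-1 : ℂ) ^ n) • B (rf (fl F)) Q.vac) : D) := by
  obtain ⟨μ, K⟩ := exists_cvd (Q := Q) (kf hB.fld) (kf_cov hB.fld)
  set G : ℂ → Completion D := fun z => en σ n z • K.J (gz σ μ F z) with hG
  have hval : ∀ t : ℝ, G t = (dD Q (σ * t) (B (fl F) Q.vac) : D) := by
    intro t
    have hs := Real.exp_pos (-(2 * Real.pi * (σ * t)))
    rw [dD, U_op hB F hs, hG]
    show en σ n t • K.J (gz σ μ F t) = _
    rw [gz_real hσ K.temp K.cone F hF t hs rfl, map_smul, K.J_toL, smul_smul, en, es_real]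
  have hval' : ∀ t : ℝ, G (t - Complex.I / 2) =
      (dD Q (σ * t) (((-1 : ℂ) ^ n) • B (rf (fl F)) Q.vac) : D) := by
    intro t
    have hs := Real.exp_pos (-(2 * Real.pi * (σ * t)))
    rw [dD, U_smul hs isLor_one' 0, Completion.coe_smul, rf_fl, U_op hB _ hs, hG]
    show en σ n (t - Complex.I / 2) • K.J (gz σ μ F (t - Complex.I / 2)) = _
    rw [gz_half hσ K.temp K.cone F hF t hs rfl, map_smul, K.J_toL, smul_smul, smul_smul, en,
      es_half hσ, neg_eq_neg_one_mul, mul_zpow, mul_assoc]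
  have hc : ContinuousOn G T.Sm := by
    rw [hG]
    exact (nice_en σ n).cont.smul (K.J.continuous.comp_continuousOn
      (cont_gz hσ K.temp K.cone F hF))
  have hn : ∀ y : Completion D, Nice fun z => inner ℂ y (G z) := by
    intro y
    have e : (fun z => inner ℂ y (G z)) = fun z => en σ n z *
        inner ℂ (ContinuousLinearMap.adjoint K.J y) (gz σ μ F z) := by
      funext z
      rw [hG]
      simp only [inner_smul_right, ContinuousLinearMap.adjoint_inner_left]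
    rw [e]
    exact (nice_en σ n).mul (nice_gz hσ K.temp K.cone F hF _)
  set C : ℝ := max ‖B (fl F) Q.vac‖ ‖((-1 : ℂ) ^ n) • B (rf (fl F)) Q.vac‖ with hC
  have hU : ∀ (t : ℝ) (v : D), ‖((dD Q t v : D) : Completion D)‖ = ‖v‖ := by
    intro t v
    rw [Completion.norm_coe]
    have h := Q.U_inner (Real.exp (-(2 * Real.pi * t))) GF.one 0 v v (Real.exp_pos _) isLor_one'
    rw [inner_self_eq_norm_sq_to_K, inner_self_eq_norm_sq_to_K] at h
    have h2 : ‖dD Q t v‖ ^ 2 = ‖v‖ ^ 2 := by exact_mod_cast h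
    exact (pow_left_inj₀ (norm_nonneg _) (norm_nonneg _) (by norm_num)).1 h2
  have hb' : ∀ z ∈ T.Sm, ‖G z‖ ≤ C := by
    intro z hz
    have h1 : ‖inner ℂ (G z) (G z)‖ ≤ ‖G z‖ * C := by
      refine (hn (G z)).pl ?_ ?_ hz.1 hz.2
      · intro t
        refine (norm_inner_le_norm _ _).trans ?_
        rw [hval, hU]
        gcongr
        exact le_max_left _ _
      · intro t
        refine (norm_inner_le_norm _ _).trans ?_
        rw [hval', hU]
        gcongr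
        exact le_max_right _ _
    have h2 : ‖inner ℂ (G z) (G z)‖ = ‖G z‖ * ‖G z‖ := by
      rw [inner_self_eq_norm_sq_to_K, norm_pow, norm_algebraMap', norm_norm, pow_two]
    rw [h2] at h1
    by_cases h3 : ‖G z‖ = 0
    · rw [h3]
      exact (norm_nonneg _).trans (le_max_left _ _)
    · exact le_of_mul_le_mul_left h1 (lt_of_le_of_ne (norm_nonneg _) (Ne.symm h3))
  have hopen : IsOpen T.SmI := (isOpen_lt continuous_const Complex.continuous_im).inter
    (isOpen_lt Complex.continuous_im continuous_const)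
  refine ⟨G, ?_, hc, ⟨C, hb'⟩, fun t => ⟨hval t, hval' t⟩⟩
  exact T.nrm_diff hopen (hc.mono fun z hz => ⟨hz.1.le, hz.2.le⟩) fun y => (hn y).diff

/-- **Block O.** -/
theorem o : OStmt Q A := by
  intro R n B f hB
  refine ⟨fun hf => ?_, fun hf => ?_⟩
  · obtain ⟨F, rfl⟩ := exists_fl hf.1
    have h1 := isTest_of_in hf
    have hF : P352.IsTest (WM 1) F := by
      refine ⟨h1.1, fun x hx => ?_⟩
      have h2 := h1.2 hx
      obtain ⟨h3, h4⟩ : 0 < GF.mdot x.ofLp x.ofLp ∧ 0 < x.ofLp GF.o := h2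
      refine ⟨?_, ?_⟩
      · rw [gf_mdot] at h3
        simpa only [P352.mdot] using h3
      · rw [one_mul]; exact h4
    obtain ⟨G, g1, g2, g3, g4⟩ := o_sig (Or.inl rfl) hB F hF
    refine ⟨G, g1, g2, g3, fun t => ?_⟩
    have := g4 t
    rwa [one_mul] at this
  · obtain ⟨F, rfl⟩ := exists_fl hf.1
    have h1 := isTest_of_in hf
    have hF : P352.IsTest (WM (-1)) F := by
      refine ⟨h1.1, fun x hx => ?_⟩
      have h2 := h1.2 hx
      obtain ⟨h3, h4⟩ : 0 < GF.mdot x.ofLp x.ofLp ∧ x.ofLp GF.o < 0 := h2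
      refine ⟨?_, ?_⟩
      · rw [gf_mdot] at h3
        simpa only [P352.mdot] using h3
      · rw [neg_one_mul]; exact neg_pos.2 h4
    obtain ⟨G, g1, g2, g3, g4⟩ := o_sig (Or.inr rfl) hB F hF
    refine ⟨G, g1, g2, g3, fun t => ?_⟩
    have := g4 t
    rwa [neg_one_mul] at this

end Vale.Agent.P352.BW.Lc

end
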