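import Vale.Agent.P352.BW.T.O2
import Vale.Agent.P352.BW.H728.Lc.Spec

/-!
# P352, light cone: Fourier-Laplace transforms at complex dilated momenta (helper728)
-/

set_option linter.all false

open MeasureTheory SchwartzMap Complex Filter Topology
open scoped SchwartzMap ComplexConjugate

namespace Vale.Agent.P352.BW.Lc

open GF H496

noncomputable section

/-- the complex scale -/
def es (σ : ℝ) (z : ℂ) : ℂ := exp (-(2 * Real.pi * (σ * z)))

/-- the dilated momentum -/
def cd (σ : ℝ) (z : ℂ) (p : Mink) : Fin 4 → ℂ := fun j => es σ z * (p j : ℂ)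

theorem cdot_cd (σ : ℝ) (z : ℂ) (p x : Mink) :
    cdot (cd σ z p) x = es σ z * (P352.mdot p x : ℂ) := by
  simp only [cdot, cd, P352.mdot]
  push_cast
  ring

/-- the cones -/
abbrev WM (σ : ℝ) : Set Mink := {x | 0 < P352.mdot x x ∧ 0 < σ * x 0}

theorem mdot_cone {x p : Mink} (hx : 0 < P352.mdot x x) (hx0 : 0 < x 0) (hp : p ∈ fwdCone) :
    0 ≤ P352.mdot p x := by
  have h2 := hp.2
  have h4 := hp.1
  simp only [P352.mdot] at h2 hx ⊢
  have e1 : (x 1 * p 1 + x 2 * p 2 + x 3 * p 3) ^ 2 ≤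
      (x 1 ^ 2 + x 2 ^ 2 + x 3 ^ 2) * (p 1 ^ 2 + p 2 ^ 2 + p 3 ^ 2) := by
    nlinarith only [sq_nonneg (x 1 * p 2 - x 2 * p 1), sq_nonneg (x 1 * p 3 - x 3 * p 1),
      sq_nonneg (x 2 * p 3 - x 3 * p 2)]
  have e2 : (x 1 ^ 2 + x 2 ^ 2 + x 3 ^ 2) * (p 1 ^ 2 + p 2 ^ 2 + p 3 ^ 2) ≤ (x 0 * p 0) ^ 2 := by
    have f1 : x 1 ^ 2 + x 2 ^ 2 + x 3 ^ 2 ≤ x 0 ^ 2 := by nlinarith only [hx]
    have f2 : p 1 ^ 2 + p 2 ^ 2 + p 3 ^ 2 ≤ p 0 ^ 2 := by nlinarith only [h2]
    rw [mul_pow]
    exact mul_le_mul f1 f2 (by positivity) (sq_nonneg _)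
  have e3 := abs_le_of_sq_le_sq' (e1.trans e2) (mul_nonneg hx0.le h4)
  nlinarith only [e3.2]

theorem im_es (σ : ℝ) (z : ℂ) : (es σ z).im =
    -(Real.exp (-(2 * Real.pi * (σ * z.re))) * Real.sin (2 * Real.pi * (σ * z.im))) := by
  unfold es
  rw [exp_im]
  have h1 : (-(2 * (Real.pi : ℂ) * (σ * z))).re = -(2 * Real.pi * (σ * z.re)) := by simp
  have h2 : (-(2 * (Real.pi : ℂ) * (σ * z))).im = -(2 * Real.pi * (σ * z.im)) := by simp
  rw [h1, h2, Real.sin_neg, mul_neg]

theorem norm_es (σ : ℝ) (z : ℂ) : ‖es σ z‖ = Real.exp (-(2 * Real.pi * (σ * z.re))) := by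
  unfold es
  rw [norm_exp]
  have h1 : (-(2 * (Real.pi : ℂ) * (σ * z))).re = -(2 * Real.pi * (σ * z.re)) := by simp
  rw [h1]

theorem goodK_cd {σ : ℝ} (hσ : σ = 1 ∨ σ = -1) {p : Mink} (hp : p ∈ fwdCone) {z : ℂ}
    (hz : z ∈ T.St) : goodK (WM σ) (cd σ z p) := by
  intro x hx
  have hs := T.sin_nonpos hz
  have hE := Real.exp_pos (-(2 * Real.pi * (σ * z.re)))
  rw [cdot_cd, mul_im, ofReal_im, ofReal_re, mul_zero, zero_add, im_es]
  rcases hσ with rfl | rfl
  · have h1 := mdot_cone hx.1 (by simpa using hx.2) hp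
    rw [one_mul z.im]
    have := mul_nonneg hE.le (neg_nonneg.2 hs)
    have h3 := mul_nonneg this h1
    linarith only [h3]
  · have h1 : 0 ≤ P352.mdot p (-x) := by
      refine mdot_cone (x := -x) ?_ ?_ hp
      · have := hx.1
        simp only [P352.mdot, PiLp.neg_apply] at this ⊢
        linarith only [this]
      · have := hx.2
        simp only [PiLp.neg_apply]
        linarith only [this]
    have h2 : P352.mdot p (-x) = -P352.mdot p x := by
      simp only [P352.mdot, PiLp.neg_apply]; ring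
    rw [h2] at h1
    have h4 : Real.sin (2 * Real.pi * (-1 * z.im)) = -Real.sin (2 * Real.pi * z.im) := by
      rw [← Real.sin_neg]; congr 1; ring
    rw [h4]
    have := mul_nonneg hE.le (neg_nonneg.2 hs)
    have h3 := mul_nonneg this h1
    linarith only [h3]

/-- The momentum from the dilated momentum. -/
theorem norm_le_cd {σ : ℝ} (hσ : σ = 1 ∨ σ = -1) (z : ℂ) (p : Mink) :
    ‖p‖ ≤ Real.exp (2 * Real.pi * |z.re|) * ∑ j, ‖cd σ z p j‖ := by
  have hn : ∀ j, ‖cd σ z p j‖ = Real.exp (-(2 * Real.pi * (σ * z.re))) * |p j| := by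
    intro j
    rw [cd, norm_mul, norm_es, norm_real, Real.norm_eq_abs]
  have hE : 1 ≤ Real.exp (2 * Real.pi * |z.re|) * Real.exp (-(2 * Real.pi * (σ * z.re))) := by
    rw [← Real.exp_add]
    apply Real.one_le_exp
    have h1 : σ * z.re ≤ |z.re| := by
      rcases hσ with rfl | rfl
      · rw [one_mul]; exact le_abs_self _
      · rw [neg_one_mul]; exact neg_le_abs _
    have := Real.pi_pos
    nlinarith
  have hp : ‖p‖ ≤ ∑ j, |p j| := by
    rw [Fin.sum_univ_four]
    apply le_of_sq_le_sq _ (by positivity)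
    rw [norm_sq_mink]
    nlinarith only [abs_nonneg (p 0), abs_nonneg (p 1), abs_nonneg (p 2), abs_nonneg (p 3),
      sq_abs (p 0), sq_abs (p 1), sq_abs (p 2), sq_abs (p 3),
      mul_nonneg (abs_nonneg (p 0)) (abs_nonneg (p 1)),
      mul_nonneg (abs_nonneg (p 0)) (abs_nonneg (p 2)),
      mul_nonneg (abs_nonneg (p 0)) (abs_nonneg (p 3)),
      mul_nonneg (abs_nonneg (p 1)) (abs_nonneg (p 2)),
      mul_nonneg (abs_nonneg (p 1)) (abs_nonneg (p 3)),
      mul_nonneg (abs_nonneg (p 2)) (abs_nonneg (p 3))]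
  simp only [hn]
  rw [← Finset.mul_sum, ← mul_assoc]
  have h0 : 0 ≤ ∑ j, |p j| := Finset.sum_nonneg fun j _ => abs_nonneg _
  exact hp.trans (le_mul_of_one_le_left h0 hE)

/-- Rapid decay. -/
theorem decay_cd {σ : ℝ} (hσ : σ = 1 ∨ σ = -1)
    (f : 𝓢(Mink, ℂ)) (hf : P352.IsTest (WM σ) f) (N : ℕ) :
    ∃ C r : ℝ, 0 ≤ C ∧ 0 ≤ r ∧ ∀ p ∈ fwdCone, ∀ z ∈ T.St,
      ‖cft f (cd σ z p)‖ ≤ C * Real.exp (r * |z.re|) * wt N p := by
  obtain ⟨C0, hC0, h0⟩ := exists_decay_coord f hf 0
  obtain ⟨C1, hC1, h1⟩ := exists_decay_coord f hf N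
  refine ⟨2 ^ N * (C0 + (4 ^ N * C1)), 2 * Real.pi * N, by positivity, by positivity,
    fun p hp z hz => ?_⟩
  have hKp := norm_le_cd hσ z p
  have hg := goodK_cd hσ hp hz
  set q := cd σ z p with hq
  set E := Real.exp (2 * Real.pi * |z.re|) with hE
  have hE1 : 1 ≤ E := Real.one_le_exp (by positivity)
  have hEN : Real.exp (2 * Real.pi * N * |z.re|) = E ^ N := by
    rw [hE, ← Real.exp_nat_mul]
    congr 1
    ring
  have hEN1 : 1 ≤ E ^ N := one_le_pow₀ hE1
  rw [hEN]
  set c := ‖cft f q‖ with hc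
  have hc0 : 0 ≤ c := norm_nonneg _
  have e0 : c ≤ C0 := by simpa using h0 q hg 0
  obtain ⟨j, -, hj⟩ := Finset.exists_max_image (Finset.univ : Finset (Fin 4)) (fun j => ‖q j‖)
    ⟨0, Finset.mem_univ 0⟩
  have hS : ∑ j, ‖q j‖ ≤ 4 * ‖q j‖ := by
    rw [Fin.sum_univ_four]
    linarith only [hj 0 (Finset.mem_univ _), hj 1 (Finset.mem_univ _), hj 2 (Finset.mem_univ _),
      hj 3 (Finset.mem_univ _)]
  have e1 := h1 q hg j
  have hpn : ‖p‖ ≤ E * (4 * ‖q j‖) :=
    hKp.trans (mul_le_mul_of_nonneg_left hS (by positivity))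
  have key : (1 + ‖p‖) ^ N * c ≤ 2 ^ N * (C0 + (4 ^ N * C1)) * E ^ N := by
    by_cases hq1 : ‖p‖ ≤ 1
    · calc (1 + ‖p‖) ^ N * c ≤ 2 ^ N * C0 := by
            have : 1 + ‖p‖ ≤ 2 := by linarith only [hq1]
            gcongr
        _ ≤ 2 ^ N * (C0 + (4 ^ N * C1)) * 1 := by
            rw [mul_one]
            have : 0 ≤ (4 ^ N * C1) := by positivity
            gcongr
            linarith only [this]
        _ ≤ _ := by
            have : 0 ≤ (4 ^ N * C1) := by positivity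
            gcongr
    · push Not at hq1
      calc (1 + ‖p‖) ^ N * c ≤ (2 * (E * (4 * ‖q j‖))) ^ N * c := by
            gcongr
            linarith only [hpn, hq1]
        _ = 2 ^ N * ((4 ^ N * (‖q j‖ ^ N * c))) * E ^ N := by
            rw [mul_pow, mul_pow, mul_pow]; ring
        _ ≤ 2 ^ N * ((4 ^ N * C1)) * E ^ N := by gcongr
        _ ≤ _ := by
            gcongr
            linarith only [hC0]
  rw [wt, ← div_eq_mul_inv, le_div_iff₀ (by positivity), mul_comm]
  exact key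

theorem continuous_cd (σ : ℝ) : Continuous fun q : ℂ × Mink => cd σ q.1 q.2 := by
  have h : ∀ j : Fin 4, Continuous fun q : ℂ × Mink => ((q.2 j : ℝ) : ℂ) := fun j =>
    continuous_ofReal.comp ((continuous_coord j).comp continuous_snd)
  refine continuous_pi fun j => ?_
  unfold cd es
  have h3 := h j
  fun_prop

theorem continuous_cft_cd_right (σ : ℝ) (f : 𝓢(Mink, ℂ)) (hf : HasCompactSupport f) (z : ℂ) :
    Continuous fun p : Mink => cft f (cd σ z p) := by
  have h1 : Continuous fun p : Mink => ((z, p) : ℂ × Mink) := by fun_prop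
  have h2 : Continuous fun p : Mink => cd σ z p :=
    Continuous.comp (f := fun p : Mink => ((z, p) : ℂ × Mink))
      (g := fun q : ℂ × Mink => cd σ q.1 q.2) (continuous_cd σ) h1
  exact (continuous_cft f hf).comp h2

/-- Entire in `z`. -/
theorem differentiable_cft_cd (σ : ℝ) (f : 𝓢(Mink, ℂ)) (hf : HasCompactSupport f) (p : Mink) :
    Differentiable ℂ fun z => cft f (cd σ z p) := by
  intro z₀
  have hcont : Continuous fun q : ℂ × Mink => exp (I * cdot (cd σ q.1 p) q.2) := by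
    apply continuous_exp.comp
    apply continuous_const.mul
    have h1 : Continuous fun q : ℂ × Mink => cd σ q.1 p :=
      (continuous_cd σ).comp (continuous_fst.prodMk continuous_const)
    have h2 : Continuous fun q : ℂ × Mink => (cd σ q.1 p, q.2) := h1.prodMk continuous_snd
    exact Continuous.comp (f := fun q : ℂ × Mink => (cd σ q.1 p, q.2))
      (g := fun r : (Fin 4 → ℂ) × Mink => cdot r.1 r.2) continuous_cdot_uncurry h2
  obtain ⟨C, hC⟩ := ((isCompact_closedBall z₀ 1).prod hf).bddAbove_image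
    (f := fun q : ℂ × Mink => ‖exp (I * cdot (cd σ q.1 p) q.2)‖) hcont.norm.continuousOn
  have hC' : ∀ z ∈ Metric.closedBall z₀ 1, ∀ x ∈ tsupport f,
      ‖exp (I * cdot (cd σ z p) x)‖ ≤ C := by
    intro z hz x hx
    exact hC ⟨(z, x), ⟨hz, hx⟩, rfl⟩
  refine differentiableAt_integral (U := Metric.ball z₀ 1) Metric.isOpen_ball
    (F := fun z x => exp (I * cdot (cd σ z p) x) * f x) (bound := fun x => C * ‖f x‖)
    ?_ ?_ ?_ ?_ (Metric.mem_ball_self one_pos)
  · intro z _
    exact (integrable_cexp_mul _ f hf).aestronglyMeasurable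
  · refine Eventually.of_forall fun x => ?_
    have : Differentiable ℂ fun z : ℂ => exp (I * cdot (cd σ z p) x) * f x := by
      simp only [cdot_cd, es]
      fun_prop
    exact this.differentiableOn
  · refine Eventually.of_forall fun x z hz => ?_
    rw [norm_mul]
    by_cases hx : x ∈ tsupport f
    · gcongr
      exact hC' z (Metric.ball_subset_closedBall hz) x hx
    · simp [image_eq_zero_of_notMem_tsupport hx]
  · exact f.integrable.norm.const_mul C

variable {μ : Measure Mink}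

/-- **O2.** -/
theorem o2 {σ : ℝ} (hσ : σ = 1 ∨ σ = -1)
    (temp : μ.HasTemperateGrowth) (cone : ∀ᵐ p ∂μ, p ∈ fwdCone) (f : 𝓢(Mink, ℂ))
    (hf : P352.IsTest (WM σ) f) {φ : Mink → ℂ} (hφ : MemLp φ 2 μ) :
    ContinuousOn (fun z => ∫ p, cft f (cd σ z p) * φ p ∂μ) T.St ∧
    DifferentiableOn ℂ (fun z => ∫ p, cft f (cd σ z p) * φ p ∂μ) T.StI ∧
    ∃ C r : ℝ, 0 ≤ C ∧ 0 ≤ r ∧ ∀ z ∈ T.St, ‖∫ p, cft f (cd σ z p) * φ p ∂μ‖ ≤
      C * Real.exp (r * |z.re|) := by
  obtain ⟨N, hN⟩ := exists_wt_memLp temp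
  obtain ⟨C, r, hC, hr, h⟩ := decay_cd hσ f hf N
  have hI : Integrable (fun p => wt N p * ‖φ p‖) μ := memLp_wt_mul hN hφ
  have hae : ∀ z, AEStronglyMeasurable (fun p => cft f (cd σ z p) * φ p) μ := fun z =>
    (continuous_cft_cd_right σ f hf.1 z).aestronglyMeasurable.mul hφ.aestronglyMeasurable
  have hbd : ∀ᵐ p ∂μ, ∀ z ∈ T.St, ‖cft f (cd σ z p) * φ p‖ ≤
      C * Real.exp (r * |z.re|) * (wt N p * ‖φ p‖) := by
    filter_upwards [cone] with p hp z hz
    rw [norm_mul]
    calc _ ≤ (C * Real.exp (r * |z.re|) * wt N p) * ‖φ p‖ := by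
          gcongr
          exact h p hp z hz
      _ = _ := by ring
  have hloc : ∀ τ : ℝ, ∀ᵐ p ∂μ, ∀ z ∈ T.St, |z.re| ≤ τ → ‖cft f (cd σ z p) * φ p‖ ≤
      C * Real.exp (r * τ) * (wt N p * ‖φ p‖) := by
    intro τ
    filter_upwards [hbd] with p hp z hz hT
    refine (hp z hz).trans ?_
    have := wt_nonneg N p
    gcongr
  refine ⟨?_, ?_, ?_⟩
  · intro z₀ hz₀
    apply continuousWithinAt_of_dominated
      (bound := fun p => C * Real.exp (r * (|z₀.re| + 1)) * (wt N p * ‖φ p‖))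
    · exact Eventually.of_forall fun z => hae z
    · have hmem : {z : ℂ | |z.re| < |z₀.re| + 1} ∈ 𝓝 z₀ := by
        apply IsOpen.mem_nhds
        · exact isOpen_lt (by fun_prop) continuous_const
        · simp only [Set.mem_ofPred_eq, lt_add_iff_pos_right, zero_lt_one]
      filter_upwards [mem_nhdsWithin_of_mem_nhds hmem, self_mem_nhdsWithin] with z hz1 hz2
      filter_upwards [hloc (|z₀.re| + 1)] with p hp using hp z hz2 (le_of_lt hz1)
    · exact hI.const_mul _
    · refine Eventually.of_forall fun p => ?_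
      apply Continuous.continuousWithinAt
      exact ((differentiable_cft_cd σ f hf.1 p).continuous).mul continuous_const
  · intro z₀ hz₀
    apply DifferentiableAt.differentiableWithinAt
    set U : Set ℂ := {z : ℂ | |z.re| < |z₀.re| + 1} ∩ T.StI with hU
    have hUo : IsOpen U := by
      apply IsOpen.inter
      · exact isOpen_lt (by fun_prop) continuous_const
      · apply IsOpen.inter
        · exact isOpen_lt continuous_const continuous_im
        · exact isOpen_lt continuous_im continuous_const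
    refine differentiableAt_integral hUo (F := fun z p => cft f (cd σ z p) * φ p)
      (bound := fun p => C * Real.exp (r * (|z₀.re| + 1)) * (wt N p * ‖φ p‖)) ?_ ?_ ?_
      (hI.const_mul _) ⟨by simp only [Set.mem_ofPred_eq, lt_add_iff_pos_right, zero_lt_one], hz₀⟩
    · exact fun z _ => hae z
    · refine Eventually.of_forall fun p => ?_
      exact ((differentiable_cft_cd σ f hf.1 p).mul_const _).differentiableOn
    · filter_upwards [hloc (|z₀.re| + 1)] with p hp z hz
      exact hp z ⟨hz.2.1.le, hz.2.2.le⟩ (le_of_lt hz.1)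
  · refine ⟨C * ∫ p, wt N p * ‖φ p‖ ∂μ, r, mul_nonneg hC (integral_nonneg fun p =>
      mul_nonneg (wt_nonneg N p) (norm_nonneg _)), hr, fun z hz => ?_⟩
    have h1 : ‖∫ p, cft f (cd σ z p) * φ p ∂μ‖ ≤
        ∫ p, C * Real.exp (r * |z.re|) * (wt N p * ‖φ p‖) ∂μ := by
      refine norm_integral_le_of_norm_le (hI.const_mul _) ?_
      filter_upwards [hbd] with p hp using hp z hz
    rw [integral_const_mul] at h1
    refine h1.trans (le_of_eq ?_)
    ring

end

end Vale.Agent.P352.BW.Lc
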