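import Vale.Agent.P352.BW.L.Spec
import Vale.Agent.P352.BW.T.Rs
import Vale.Agent.P352.H496.Br5

/-!
# P352, light cone [R]: Reeh-Schlieder for homogeneous fields and the forward cone (helper728)
-/

set_option linter.all false

noncomputable section

open MeasureTheory SchwartzMap Filter Topology
open scoped SchwartzMap ComplexConjugate InnerProductSpace

namespace Vale.Agent.P352.BW.L

open UniformSpace (Completion)
open GF H246 H496 H755 H15

variable {D : Type*} [NormedAddCommGroup D] [InnerProductSpace ℂ D]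
variable {Q : Theory D} {A : (V → V) → D → D}

/-- homogeneous fields -/
def HF (Q : Theory D) (B : Fld D) : Prop := ∃ d, Fz Q d B

lemma hf_fld {B : Fld D} (h : HF Q B) : Q.fld B := by
  obtain ⟨d, h⟩ := h
  exact h.fld

lemma hf_adj (t1 : T1 Q) (B : Fld D) (h : HF Q B) : ∃ B', HF Q B' ∧ ∀ f v w, GF.IsTest f →
    inner ℂ (B f v) w = inner ℂ v (B' (GF.bar f) w) := by
  obtain ⟨d, h⟩ := h
  obtain ⟨B', h', hadj⟩ := t1.adj d B h
  exact ⟨B', ⟨d, h'⟩, hadj⟩

lemma hf_cyc (hT : DGen Q) (S : Submodule ℂ D) (hv : Q.vac ∈ S)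
    (h : ∀ B f v, HF Q B → GF.IsTest f → v ∈ S → B f v ∈ S) : Dense (S : Set D) :=
  hT S hv fun d B f v hI hf hvS => h B f v ⟨d, hI⟩ hf hvS

/-- the theory of the homogeneous fields -/
def hT (t1 : T1 Q) (hT : DGen Q) : Theory D :=
  subT Q (HF Q) (fun _ => hf_fld) (hf_adj t1) (hf_cyc hT)

lemma big_fc : Big (MW Fc) := by
  intro r
  refine ⟨WithLp.toLp 2 ![4 * |r| + 4, 0, 0, 0], fun x hx => ?_⟩
  have h0 := (abs_le.1 ((hx 0).trans (le_abs_self r))).1
  have h1 := abs_le.1 ((hx 1).trans (le_abs_self r))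
  have h2 := abs_le.1 ((hx 2).trans (le_abs_self r))
  have h3 := abs_le.1 ((hx 3).trans (le_abs_self r))
  simp at h0 h1 h2 h3
  have hr := abs_nonneg r
  have k0 : 3 * |r| + 4 ≤ x.ofLp 0 := by linarith
  have k1 : x.ofLp 1 ^ 2 ≤ |r| ^ 2 := sq_le_sq' (by linarith [h1.1]) (by linarith [h1.2])
  have k2 : x.ofLp 2 ^ 2 ≤ |r| ^ 2 := sq_le_sq' (by linarith [h2.1]) (by linarith [h2.2])
  have k3 : x.ofLp 3 ^ 2 ≤ |r| ^ 2 := sq_le_sq' (by linarith [h3.1]) (by linarith [h3.2])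
  have k4 : (3 * |r| + 4) ^ 2 ≤ x.ofLp 0 ^ 2 := pow_le_pow_left₀ (by positivity) k0 2
  refine ⟨?_, ?_⟩
  · show 0 < GF.mdot x.ofLp x.ofLp
    rw [gf_mdot]
    nlinarith
  · show 0 < x.ofLp 0
    linarith

/-- **block R** -/
theorem r (h1 : T1Stmt Q A) : RStmt Q A := by
  intro hR hG S hvac hS
  have t1 := h1 hR
  have hd : Dense (PS (hT t1 hG) (MW Fc) : Set D) := dense_big big_fc
  refine hd.mono fun v hv => ?_
  have hv' : PW (hT t1 hG) (MW Fc) v := hv
  induction hv' with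
  | vac => exact hvac
  | add _ _ h1 h2 => exact S.add_mem (h1 ‹_›) (h2 ‹_›)
  | smul c _ h1 => exact S.smul_mem c (h1 ‹_›)
  | @fld B g v hB hg hw ih =>
    obtain ⟨d, hd'⟩ : HF Q B := hB
    exact hS d B (fl g) v hd' (In_fl.2 hg) (ih hw)

end Vale.Agent.P352.BW.L

end
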